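import Vale.Agent.P147.Dir.Walk
import Vale.Agent.P147.Dir.Blocks

/-!
P147, gluing step: an upward path cut at its regeneration times, continued by an independent
downward path that avoids the past, gives disjoint events; hence the avoidance probabilities are
summable.
-/

open MeasureTheory Filter Finset
open scoped ENNReal

namespace Vale.Agent.P147.Glue

open Vale.Agent.P147.Cond Vale.Agent.P147.Dir Vale.Agent.P147.Dir.Blocks

variable {d k : ℕ} [NeZero k] (v : Fin k → Site d) (μ : Measure (Row k)) [IsProbabilityMeasure μ]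
  (ht : Site d →+ ℝ)

/-- The sites visited before the `n`-th regeneration, seen from the regeneration site. -/
def Past (n : ℕ) (t : ℕ → Fin k) : Set (Site d) :=
  {z | ∃ m < regTime v ht n t, z = pos v t m - pos v t (regTime v ht n t)}

/-- The sites visited before time `R`, seen from the site at time `R`. -/
def past (R : ℕ) (t : ℕ → Fin k) : Set (Site d) :=
  {z | ∃ m < R, z = pos v t m - pos v t R}

/-- The paths avoiding a set of sites. -/
def avoid (U : Set (Site d)) : Set (ℕ → Fin k) := {s | ∀ m, pos v s m ∉ U}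

/-- Probability that an independent downward path avoids the past of an upward path. -/
noncomputable def avoidProb (n : ℕ) : ℝ≥0∞ :=
  ((upLaw v μ ht).prod (upLaw v μ (-ht))) {x | ∀ m, pos v x.2 m ∉ Past v ht n x.1}

/-- The first `R` steps decide that `R` is the `n`-th regeneration time, given the future. -/
def Pre (n R : ℕ) (t : ℕ → Fin k) : Prop :=
  Rec v ht R t ∧ ∀ t', (∀ i < R, t' i = t i) → shift R t' ∈ StayUp v ht →
    t' ∈ StayUp v ht ∧ regTime v ht n t' = R ∧
      ∀ i < n, regTime v ht i t' < regTime v ht (i + 1) t'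

theorem measurableSet_avoid (U : Set (Site d)) : MeasurableSet (avoid v U) := by
  simp only [avoid, Set.ofPred_forall]
  exact .iInter fun m => measurableSet_pos_mem v m Uᶜ

theorem reg_iff {t t' : ℕ → Fin k} {R : ℕ} (hag : ∀ i < R, t' i = t i) (hrec : Rec v ht R t)
    (hs : shift R t ∈ stay v ht) (hs' : shift R t' ∈ stay v ht) {m : ℕ} (hm : m ≤ R) :
    Reg v ht m t' ↔ Reg v ht m t := by
  suffices h : ∀ a b : ℕ → Fin k, (∀ i < R, a i = b i) → Rec v ht R a → shift R b ∈ stay v ht →
      Reg v ht m a → Reg v ht m b from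
    ⟨h t' t hag (fun j hj => by
        rw [pos_congr v hag hj.le, pos_congr v hag le_rfl]; exact hrec j hj) hs,
      h t t' (fun i hi => (hag i hi).symm) hrec hs'⟩
  rintro a b hab hra hsb ⟨h1, h2⟩
  refine ⟨fun j hj => ?_, fun q => ?_⟩
  · rw [← pos_congr v hab (hj.le.trans hm), ← pos_congr v hab hm]
    exact h1 j hj
  · have key : ht (pos v b m) ≤ ht (pos v b (m + q)) := by
      rcases le_or_gt (m + q) R with h | h
      · have := h2 q
        rw [← pos_congr v hab h, ← pos_congr v hab hm, height_add]
        linarith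
      · obtain ⟨r, hr⟩ := Nat.exists_eq_add_of_le h.le
        have h3 : ht (pos v b m) ≤ ht (pos v b R) := by
          rw [← pos_congr v hab le_rfl, ← pos_congr v hab hm]
          rcases hm.eq_or_lt with e | e
          · rw [e]
          · exact (hra m e).le
        have := hsb r
        rw [hr, height_add]
        linarith
    rw [height_add] at key
    linarith

theorem regTime_congr {t t' : ℕ → Fin k} {n R : ℕ} (hag : ∀ i < R, t' i = t i)
    (hrec : Rec v ht R t) (hs : shift R t ∈ stay v ht) (hs' : shift R t' ∈ stay v ht)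
    (hR : regTime v ht n t = R)
    (hlt : ∀ i < n, regTime v ht i t < regTime v ht (i + 1) t) :
    ∀ i ≤ n, regTime v ht i t' = regTime v ht i t ∧ regTime v ht i t ≤ R := by
  have hle : ∀ j ≤ n, regTime v ht (n - j) t ≤ R := by
    intro j hj
    induction j with
    | zero => simp [hR]
    | succ j ih =>
      have := hlt (n - (j + 1)) (by omega)
      rw [show n - (j + 1) + 1 = n - j by omega] at this
      exact this.le.trans (ih (by omega))
  intro i
  induction i with
  | zero => intro; exact ⟨rfl, by simp [regTime]⟩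
  | succ i ih =>
    intro hi
    obtain ⟨he, h1⟩ := ih (by omega)
    have h2 : regTime v ht (i + 1) t ≤ R := by
      have := hle (n - (i + 1)) (by omega)
      rwa [show n - (n - (i + 1)) = i + 1 by omega] at this
    refine ⟨?_, h2⟩
    have hstep := hlt i (by omega)
    simp only [regTime] at hstep h2 ⊢
    rw [he]
    congr 1
    set τ := regTime v ht i t
    have hagτ : ∀ j < R - τ, shift τ t' j = shift τ t j := fun j hj => hag _ (by omega)
    have hrecτ : Rec v ht (R - τ) (shift τ t) := fun j hj => by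
      have h3 := hrec (τ + j) (by omega)
      rw [height_add] at h3
      have h4 := height_add v ht t τ (R - τ)
      rw [show τ + (R - τ) = R by omega] at h4
      linarith
    have hsτ : shift (R - τ) (shift τ t) ∈ stay v ht := by
      rw [shift_shift, show τ + (R - τ) = R by omega]; exact hs
    have hsτ' : shift (R - τ) (shift τ t') ∈ stay v ht := by
      rw [shift_shift, show τ + (R - τ) = R by omega]; exact hs'
    have hex : ∃ j, 0 < j ∧ Reg v ht j (shift τ t) := by
      by_contra hno
      rw [next, dif_neg hno, add_zero] at hstep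
      exact lt_irrefl _ hstep
    obtain ⟨n1, n2, n3⟩ := next_spec v ht hex
    exact next_eq v ht n1 ((reg_iff v ht hagτ hrecτ hsτ hsτ' (by omega)).2 n2)
      fun m hm hmlt hr => n3 m hm hmlt
        ((reg_iff v ht hagτ hrecτ hsτ hsτ' (by omega)).1 hr)

theorem pre_of_regular {t : ℕ → Fin k} (hst : t ∈ StayUp v ht) (n : ℕ)
    (hlt : ∀ i < n, regTime v ht i t < regTime v ht (i + 1) t)
    (hrec : Rec v ht (regTime v ht n t) t)
    (hs : shift (regTime v ht n t) t ∈ stay v ht) : Pre v ht n (regTime v ht n t) t := by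
  set R := regTime v ht n t with hR
  refine ⟨hrec, fun t' hag hf => ⟨⟨fun m => ?_, (up_shift_iff v ht t' R).1 hf.2⟩, ?_, fun i hi => ?_⟩⟩
  · rcases le_or_gt m R with h | h
    · rw [pos_congr v hag h]; exact hst.1 m
    · obtain ⟨q, rfl⟩ := Nat.exists_eq_add_of_le h.le
      rw [height_add, pos_congr v hag le_rfl]
      exact add_nonneg (hst.1 R) (hf.1 q)
  · exact (regTime_congr v ht hag hrec hs hf.1 hR.symm hlt n le_rfl).1
  · rw [(regTime_congr v ht hag hrec hs hf.1 hR.symm hlt i hi.le).1,
      (regTime_congr v ht hag hrec hs hf.1 hR.symm hlt (i + 1) hi).1]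
    exact hlt i hi

theorem past_congr {t t' : ℕ → Fin k} {R : ℕ} (hag : ∀ i < R, t' i = t i) :
    past v R t' = past v R t := by
  ext z
  simp only [past, Set.mem_ofPred_eq]
  refine ⟨fun ⟨m, hm, e⟩ => ⟨m, hm, ?_⟩, fun ⟨m, hm, e⟩ => ⟨m, hm, ?_⟩⟩
  · rwa [pos_congr v hag hm.le, pos_congr v hag le_rfl] at e
  · rwa [pos_congr v hag hm.le, pos_congr v hag le_rfl]

theorem measurableSet_avoidPast (n : ℕ) :
    MeasurableSet {x : (ℕ → Fin k) × (ℕ → Fin k) | ∀ m, pos v x.2 m ∉ Past v ht n x.1} := by
  have hR : Measurable fun x : (ℕ → Fin k) × (ℕ → Fin k) => regTime v ht n x.1 :=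
    (meas_regTime v ht n).comp measurable_fst
  have hp : Measurable fun x : (ℕ → Fin k) × ℕ => pos v x.1 x.2 :=
    measurable_from_prod_countable_left fun j => measurable_pos v j
  have e : {x : (ℕ → Fin k) × (ℕ → Fin k) | ∀ m, pos v x.2 m ∉ Past v ht n x.1} =
      ⋂ (m : ℕ) (j : ℕ), ({x | j < regTime v ht n x.1} ∩
        {x | pos v x.2 m = pos v x.1 j - pos v x.1 (regTime v ht n x.1)})ᶜ := by
    ext x
    simp [Past]
  rw [e]
  refine .iInter fun m => .iInter fun j => ((measurableSet_lt measurable_const hR).inter ?_).compl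
  exact measurableSet_eq_fun ((measurable_pos v m).comp measurable_snd)
    (((measurable_pos v j).comp measurable_fst).sub (hp.comp (measurable_fst.prodMk hR)))

/-- A glued path: first `R` steps `w`, then a downward path avoiding them. -/
def glued (R : ℕ) (w : ℕ → Fin k) : Set (ℕ → Fin k) :=
  {t | (∀ i < R, t i = w i) ∧
    shift R t ∈ StayUp v (-ht) ∩ avoid v (past v R w)}

theorem measurableSet_glued (R : ℕ) (w : ℕ → Fin k) : MeasurableSet (glued v ht R w) :=
  measurableSet_prefix_inter R w ((meas_StayUp v (-ht)).inter (measurableSet_avoid v _))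

theorem law_glued (R : ℕ) (w : ℕ → Fin k) :
    law v μ (glued v ht R w) = law v μ {t | ∀ i < R, t i = w i} *
      law v μ (StayUp v (-ht) ∩ avoid v (past v R w)) :=
  law_fresh v μ (past v R w)ᶜ (fun j hj hmem => hmem ⟨j, hj, rfl⟩)
    ((meas_StayUp v (-ht)).inter (measurableSet_avoid v _)) fun _ hs m => hs.2 m

theorem glued_time {R R' : ℕ} {w w' t : ℕ → Fin k} (hw : Rec v ht R w) (hw' : Rec v ht R' w')
    (h : t ∈ glued v ht R w) (h' : t ∈ glued v ht R' w') : R = R' := by
  suffices key : ∀ {R R' : ℕ} {w w' : ℕ → Fin k}, Rec v ht R' w' → t ∈ glued v ht R w →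
      t ∈ glued v ht R' w' → ¬ R < R' from
    le_antisymm (not_lt.1 (key hw h' h)) (not_lt.1 (key hw' h h'))
  intro R R' w w' hr hg hg' hlt
  obtain ⟨q, rfl⟩ := Nat.exists_eq_add_of_le hlt.le
  have h1 := hr R (by omega)
  rw [← pos_congr v hg'.1 hlt.le, ← pos_congr v hg'.1 le_rfl, height_add] at h1
  have h2 : 0 ≤ (-ht) (pos v (shift R t) q) := hg.2.1.1 q
  rw [AddMonoidHom.neg_apply] at h2
  linarith

theorem avoidProb_sum_le (hp : law v μ (StayUp v ht) ≠ 0)
    (hm : law v μ (StayUp v (-ht)) ≠ 0) :
    ∑' n, avoidProb v μ ht n ≤ (law v μ (StayUp v (-ht)))⁻¹ := by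
  classical
  have := isProb_upLaw v μ ht hp
  have := isProb_upLaw v μ (-ht) hm
  set cm := law v μ (StayUp v (-ht)) with hcm
  let J := Σ n : ℕ, Σ R : ℕ, {w : Fin R → Fin k // Pre v ht n R (ext' w)}
  let G : J → Set (ℕ → Fin k) := fun j => glued v ht j.2.1 (ext' j.2.2.1)
  have hbound : ∀ n, avoidProb v μ ht n ≤
      cm⁻¹ * ∑' j : Σ R : ℕ, {w : Fin R → Fin k // Pre v ht n R (ext' w)},
        law v μ (G ⟨n, j⟩) := by
    intro n
    let E : (Σ R : ℕ, {w : Fin R → Fin k // Pre v ht n R (ext' w)}) → Set (ℕ → Fin k) :=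
      fun j => {t | (∀ i < j.1, t i = ext' j.2.1 i) ∧ shift j.1 t ∈ StayUp v ht}
    have hE : ∀ j, MeasurableSet (E j) := fun j =>
      measurableSet_prefix_inter _ _ (meas_StayUp v ht)
    have hcov : ∀ᵐ t ∂upLaw v μ ht, t ∈ ⋃ j, E j := by
      refine ae_upLaw v μ ht ?_
      filter_upwards [ae_reg_exists v μ ht hp] with t hex hst
      set R := regTime v ht n t
      have hag : ∀ i < R, ext' (fun i : Fin R => t i) i = t i := fun i hi => by simp [ext', hi]
      have hpre := pre_of_regular v ht hst n (fun i _ => by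
          obtain ⟨h, -⟩ := next_spec v ht (hex _ (path_regular v ht hst hex i).1)
          simp only [regTime]
          omega) (path_regular v ht hst hex n).2 (path_regular v ht hst hex n).1.1
      have hpre' : Pre v ht n R (ext' fun i : Fin R => t i) := by
        refine ⟨fun j hj => ?_, fun t' h' => hpre.2 t' fun i hi => by rw [h' i hi, hag i hi]⟩
        rw [pos_congr v hag hj.le, pos_congr v hag le_rfl]
        exact hpre.1 j hj
      exact Set.mem_iUnion.2 ⟨⟨R, ⟨fun i => t i, hpre'⟩⟩, fun i hi => (hag i hi).symm,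
        (path_regular v ht hst hex n).1⟩
    rw [avoidProb, Measure.prod_apply (measurableSet_avoidPast v ht n)]
    calc _ = ∫⁻ t in ⋃ j, E j, upLaw v μ (-ht)
          (Prod.mk t ⁻¹' {x | ∀ m, pos v x.2 m ∉ Past v ht n x.1}) ∂upLaw v μ ht := by
          rw [Measure.restrict_eq_self_of_ae_mem hcov]
      _ ≤ ∑' j, ∫⁻ t in E j, upLaw v μ (-ht)
          (Prod.mk t ⁻¹' {x | ∀ m, pos v x.2 m ∉ Past v ht n x.1}) ∂upLaw v μ ht :=
          lintegral_iUnion_le _ _
      _ = ∑' j : Σ R : ℕ, {w : Fin R → Fin k // Pre v ht n R (ext' w)},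
            cm⁻¹ * law v μ (G ⟨n, j⟩) := by
          refine tsum_congr fun j => ?_
          obtain ⟨R, w, hw⟩ := j
          have hsec : ∀ t ∈ E ⟨R, ⟨w, hw⟩⟩,
              Prod.mk t ⁻¹' {x | ∀ m, pos v x.2 m ∉ Past v ht n x.1} =
                avoid v (past v R (ext' w)) := by
            rintro t ⟨h1, h2⟩
            rw [← past_congr v h1]
            show avoid v (Past v ht n t) = avoid v (past v R t)
            rw [Past, (hw.2 t h1 h2).2.1]
            rfl
          rw [setLIntegral_congr_fun (hE _) fun t ht' => congrArg _ (hsec t ht'),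
            setLIntegral_const, upLaw_apply v μ ht (hE _),
            upLaw_apply v μ (-ht) (measurableSet_avoid v _),
            Set.inter_eq_right.2 fun t ht' => (hw.2 t ht'.1 ht'.2).1]
          show _ * (_ * law v μ {t | (∀ i < R, t i = ext' w i) ∧
            (fun i => t (R + i)) ∈ StayUp v ht}) = _
          rw [law_record v μ ht hw.1 (meas_StayUp v ht) Set.inter_subset_left]
          show _ = cm⁻¹ * law v μ (glued v ht R (ext' w))
          rw [law_glued, show ∀ a b : ℝ≥0∞, a * b * ((law v μ (StayUp v ht))⁻¹ *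
              (law v μ {t | ∀ i < R, t i = ext' w i} * law v μ (StayUp v ht))) =
              (law v μ (StayUp v ht))⁻¹ * law v μ (StayUp v ht) *
              (a * (law v μ {t | ∀ i < R, t i = ext' w i} * b)) from fun a b => by ring,
            ENNReal.inv_mul_cancel hp (measure_ne_top _ _), one_mul]
      _ = _ := ENNReal.tsum_mul_left
  have hdisj : Pairwise (Function.onFun Disjoint G) := by
    rintro ⟨n, R, w, hw⟩ ⟨n', R', w', hw'⟩ hne
    refine Set.disjoint_left.2 fun t h h' => hne ?_
    obtain rfl : R = R' := glued_time v ht hw.1 hw'.1 h h'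
    obtain rfl : w = w' := funext fun i => by
      have := (h.1 i i.2).symm.trans (h'.1 i i.2)
      simpa [ext'] using this
    suffices n = n' by subst this; rfl
    obtain ⟨s, hs⟩ := nonempty_of_measure_ne_zero hp
    set t' : ℕ → Fin k := fun i => if i < R then ext' w i else s (i - R) with ht'
    have hag : ∀ i < R, t' i = ext' w i := fun i hi => by simp [ht', hi]
    have hfut : shift R t' ∈ StayUp v ht := by
      have : shift R t' = s := by funext i; simp [ht', shift]
      rwa [this]
    obtain ⟨-, e1, m1⟩ := hw.2 t' hag hfut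
    obtain ⟨-, e2, m2⟩ := hw'.2 t' hag hfut
    have mono : ∀ {a b : ℕ}, (∀ i < b, regTime v ht i t' < regTime v ht (i + 1) t') →
        a < b → regTime v ht a t' < regTime v ht b t' := fun {a b} hb hab => by
      induction b with
      | zero => omega
      | succ b ih =>
        rcases Nat.lt_succ_iff_lt_or_eq.1 hab with h | h
        · exact (ih (fun i hi => hb i (by omega)) h).trans (hb b (by omega))
        · subst h; exact hb _ (by omega)
    rcases lt_trichotomy n n' with h | h | h
    · exact absurd (mono m2 h) (by omega)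
    · exact h
    · exact absurd (mono m1 h) (by omega)
  calc ∑' n, avoidProb v μ ht n ≤ ∑' n, cm⁻¹ *
        ∑' j : Σ R : ℕ, {w : Fin R → Fin k // Pre v ht n R (ext' w)}, law v μ (G ⟨n, j⟩) :=
        ENNReal.tsum_le_tsum hbound
    _ = cm⁻¹ * ∑' j : J, law v μ (G j) := by rw [ENNReal.tsum_mul_left, ENNReal.tsum_sigma']
    _ = cm⁻¹ * law v μ (⋃ j, G j) := by
        rw [measure_iUnion hdisj fun j => measurableSet_glued v ht _ _]
    _ ≤ cm⁻¹ := mul_le_of_le_one_right' prob_le_one

end Vale.Agent.P147.Glue
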