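import Vale.Agent.P147.Cond.Union
import Vale.Agent.P147.Dir.Walk
import Vale.Agent.P147.Dir.Blocks

/-!
P147, gluing step: the quenched law, the maximal inequality for the probability of an invariant
event seen from the walker, and two independent walks in one environment.
-/

open MeasureTheory Filter Finset
open scoped ENNReal symmDiff

namespace Vale.Agent.P147.Glue

open Vale.Agent.P147.Cond Vale.Agent.P147.Dir Vale.Agent.P147.Dir.Blocks

variable {d k : ℕ} [NeZero k] (v : Fin k → Site d)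

/-- Law of the walk in a fixed environment. -/
noncomputable def qLaw (ω : Site d → Row k) : Measure (ℕ → Fin k) := uLaw.map (steps v ω)

theorem measurable_stepsAt (ω : Site d → Row k) : Measurable (steps v ω) :=
  Measurable.comp (g := fun y : (Site d → Row k) × (ℕ → ℝ) => steps v y.1 y.2)
    (f := fun u => (ω, u)) (measurable_steps v) (measurable_const.prodMk measurable_id)

instance (ω : Site d → Row k) : IsProbabilityMeasure (qLaw v ω) :=
  Measure.isProbabilityMeasure_map (measurable_stepsAt v ω).aemeasurable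

theorem qLaw_apply (ω : Site d → Row k) {B : Set (ℕ → Fin k)} (hB : MeasurableSet B) :
    qLaw v ω B = quenched v ω B := by
  rw [qLaw, Measure.map_apply (measurable_stepsAt v ω) hB]
  rfl

/-- The environment seen from `x`. -/
def seen (x : Site d) (ω : Site d → Row k) : Site d → Row k := fun z => ω (x + z)

omit [NeZero k] in
theorem seen_zero (ω : Site d → Row k) : seen 0 ω = ω := by funext z; simp [seen]

omit [NeZero k] in
theorem seen_seen (x y : Site d) (ω : Site d → Row k) : seen y (seen x ω) = seen (x + y) ω := by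
  funext z; simp [seen, add_assoc]

omit [NeZero k] in
theorem measurable_seen (x : Site d) : Measurable (seen x : (Site d → Row k) → Site d → Row k) :=
  measurable_pi_lambda _ fun z => measurable_pi_apply _

omit [NeZero k] in
theorem measurableSet_prefix (s : ℕ → Fin k) (n : ℕ) :
    MeasurableSet {t : ℕ → Fin k | ∀ i < n, t i = s i} := by
  simp only [Set.ofPred_forall]
  exact .iInter fun i => .iInter fun _ => measurable_pi_apply i (measurableSet_singleton _)

theorem qLaw_prefix (ω : Site d → Row k) (s : ℕ → Fin k) (n : ℕ) :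
    qLaw v ω {t | ∀ i < n, t i = s i} = weight v s n ω := by
  have h := quenched_prefix v ω s n MeasurableSet.univ
  simp only [Set.mem_univ, and_true] at h
  rw [qLaw_apply v ω (measurableSet_prefix s n), h]
  simp [quenched]

theorem qLaw_sum (ω : Site d → Row k) (n : ℕ) {E : Set (ℕ → Fin k)}
    (hE : ∀ t t' : ℕ → Fin k, (∀ i < n, t i = t' i) → t ∈ E → t' ∈ E) :
    open Classical in
    qLaw v ω E = ∑ w : Fin n → Fin k, if ext' w ∈ E then weight v (ext' w) n ω else 0 := by
  classical
  have h := sum_prefix (qLaw v ω) n hE MeasurableSet.univ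
  simp only [Set.inter_univ] at h
  rw [h]
  exact sum_congr rfl fun w _ => by split_ifs <;> simp [qLaw_prefix]

theorem qLaw_inter_invariant (ω : Site d → Row k) {n : ℕ} {E : Set (ℕ → Fin k)}
    (hE : ∀ t t' : ℕ → Fin k, (∀ i < n, t i = t' i) → t ∈ E → t' ∈ E) {B : Set (ℕ → Fin k)}
    (hB : MeasurableSet B) (hinv : ∀ t, t ∈ B ↔ shift n t ∈ B) {θ : ℝ≥0∞}
    (hθ : ∀ t ∈ E, qLaw v (seen (pos v t n) ω) B ≤ θ) :
    qLaw v ω (E ∩ B) ≤ θ * qLaw v ω E := by
  classical
  rw [sum_prefix (qLaw v ω) n hE hB, qLaw_sum v ω n hE, mul_sum]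
  refine sum_le_sum fun w _ => ?_
  split_ifs with hw
  · have e : {t | ∀ i < n, t i = ext' w i} ∩ B =
        {t | (∀ i < n, t i = ext' w i) ∧ (fun i => t (n + i)) ∈ B} :=
      Set.ext fun t => and_congr_right fun _ => hinv t
    rw [e, qLaw_apply v ω (measurableSet_prefix_inter n _ hB), quenched_prefix v ω _ n hB,
      ← qLaw_apply v _ hB, mul_comm]
    exact mul_le_mul_left (hθ _ hw) _
  · simp

/-- The first time from `M` on at which the walker sits on a bad site. -/
def first (bad : Site d → Prop) (M n : ℕ) : Set (ℕ → Fin k) :=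
  {t | M ≤ n ∧ bad (pos v t n) ∧ ∀ j < n, M ≤ j → ¬ bad (pos v t j)}

theorem first_congr (bad : Site d → Prop) (M n : ℕ) : ∀ t t' : ℕ → Fin k,
    (∀ i < n, t i = t' i) → t ∈ first v bad M n → t' ∈ first v bad M n := by
  rintro t t' h ⟨h1, h2, h3⟩
  refine ⟨h1, ?_, fun j hj hMj => ?_⟩
  · rwa [← pos_congr v h le_rfl]
  · rw [← pos_congr v h hj.le]; exact h3 j hj hMj

omit [NeZero k] in
theorem iUnion_first (bad : Site d → Prop) (M : ℕ) :
    ⋃ n, first v bad M n = {t | ∃ n, M ≤ n ∧ bad (pos v t n)} := by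
  classical
  ext t
  simp only [Set.mem_iUnion]
  refine ⟨fun ⟨n, h⟩ => ⟨n, h.1, h.2.1⟩, fun h => ⟨Nat.find h, (Nat.find_spec h).1,
    (Nat.find_spec h).2, fun j hj hMj hb => Nat.find_min h hj ⟨hMj, hb⟩⟩⟩

omit [NeZero k] in
theorem disjoint_first (bad : Site d → Prop) (M : ℕ) :
    Pairwise (Function.onFun Disjoint (first v bad M)) := fun a b hab => by
  refine Set.disjoint_left.2 fun t ha hb => ?_
  rcases lt_or_gt_of_ne hab with h | h
  exacts [hb.2.2 a h ha.1 ha.2.1, ha.2.2 b h hb.1 hb.2.1]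

theorem qLaw_inter_hit (ω : Site d → Row k) (bad : Site d → Prop) {M : ℕ} {C : Set (ℕ → Fin k)}
    (hC : ∀ t t' : ℕ → Fin k, (∀ i < M, t i = t' i) → t ∈ C → t' ∈ C) {B : Set (ℕ → Fin k)}
    (hB : MeasurableSet B) (hinv : ∀ n t, t ∈ B ↔ shift n t ∈ B) {θ : ℝ≥0∞}
    (hθ : ∀ x, bad x → qLaw v (seen x ω) B ≤ θ) :
    qLaw v ω (C ∩ {t | ∃ n, M ≤ n ∧ bad (pos v t n)} ∩ B) ≤
      θ * qLaw v ω (C ∩ {t | ∃ n, M ≤ n ∧ bad (pos v t n)}) := by
  rw [← iUnion_first, Set.inter_iUnion, Set.iUnion_inter]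
  have hE : ∀ n, ∀ t t' : ℕ → Fin k, (∀ i < n, t i = t' i) → t ∈ C ∩ first v bad M n →
      t' ∈ C ∩ first v bad M n := fun n t t' h ht =>
    ⟨hC t t' (fun i hi => h i (hi.trans_le ht.2.1)) ht.1, first_congr v bad M n t t' h ht.2⟩
  have hd : Pairwise (Function.onFun Disjoint fun n => C ∩ first v bad M n) := fun a b hab =>
    (disjoint_first v bad M hab).mono Set.inter_subset_right Set.inter_subset_right
  rw [measure_iUnion hd fun n => measurableSet_of_prefix n (hE n),
    measure_iUnion (fun a b hab => (hd hab).mono Set.inter_subset_left Set.inter_subset_left)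
      fun n => (measurableSet_of_prefix n (hE n)).inter hB, ← ENNReal.tsum_mul_left]
  exact ENNReal.tsum_le_tsum fun n =>
    qLaw_inter_invariant v ω (hE n) hB (hinv n) fun t ht => hθ _ ht.2.2.1

/-- An invariant event is unlikely once the walker has seen it to be unlikely. -/
theorem qLaw_bad_le (ω : Site d → Row k) (bad : Site d → Prop) {B : Set (ℕ → Fin k)}
    (hB : MeasurableSet B) (hinv : ∀ n t, t ∈ B ↔ shift n t ∈ B) {θ : ℝ≥0∞}
    (hθ : ∀ x, bad x → qLaw v (seen x ω) B ≤ θ) :
    qLaw v ω (B ∩ {t | ∃ n, bad (pos v t n)}) ≤ θ := by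
  have h := qLaw_inter_hit v ω bad (M := 0) (C := Set.univ) (fun _ _ _ h => h) hB hinv hθ
  simp only [zero_le, true_and, Set.univ_inter] at h
  rw [Set.inter_comm]
  exact h.trans (mul_le_of_le_one_right' prob_le_one)

/-- After time `M` this is controlled by approximating the event with the first `M` steps. -/
theorem qLaw_late_le (ω : Site d → Row k) (bad : Site d → Prop) {M : ℕ} {C : Set (ℕ → Fin k)}
    (hC : ∀ t t' : ℕ → Fin k, (∀ i < M, t i = t' i) → t ∈ C → t' ∈ C) {B : Set (ℕ → Fin k)}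
    (hB : MeasurableSet B) (hinv : ∀ n t, t ∈ B ↔ shift n t ∈ B) {θ : ℝ≥0∞} (hθ1 : θ ≤ 1)
    (hθ : ∀ x, bad x → qLaw v (seen x ω) B ≤ θ) :
    (1 - θ) * qLaw v ω (B ∩ {t | ∃ n, M ≤ n ∧ bad (pos v t n)}) ≤ qLaw v ω (B ∆ C) := by
  set E := {t : ℕ → Fin k | ∃ n, M ≤ n ∧ bad (pos v t n)}
  set q := qLaw v ω
  set e := q (B ∆ C)
  have h1 : q (B ∩ E) ≤ e + θ * q (C ∩ E) := by
    refine (measure_mono (t := B ∆ C ∪ C ∩ E ∩ B) fun t ht => ?_).trans
      ((measure_union_le _ _).trans (add_le_add le_rfl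
        (qLaw_inter_hit v ω bad hC hB hinv hθ)))
    by_cases hc : t ∈ C
    · exact Or.inr ⟨⟨hc, ht.2⟩, ht.1⟩
    · exact Or.inl (Or.inl ⟨ht.1, hc⟩)
  have h2 : q (C ∩ E) ≤ e + θ * q (C ∩ E) := by
    refine (measure_mono (t := B ∆ C ∪ C ∩ E ∩ B) fun t ht => ?_).trans
      ((measure_union_le _ _).trans (add_le_add le_rfl
        (qLaw_inter_hit v ω bad hC hB hinv hθ)))
    by_cases hc : t ∈ B
    · exact Or.inr ⟨ht, hc⟩
    · exact Or.inl (Or.inr ⟨ht.1, hc⟩)
  have h3 : (1 - θ) * q (C ∩ E) ≤ e := by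
    rw [ENNReal.sub_mul fun _ _ => measure_ne_top _ _, one_mul]
    exact tsub_le_iff_right.2 h2
  calc (1 - θ) * q (B ∩ E) ≤ (1 - θ) * e + θ * ((1 - θ) * q (C ∩ E)) := by
        rw [mul_left_comm θ, ← mul_add]
        exact mul_le_mul_right h1 _
    _ ≤ (1 - θ) * e + θ * e := add_le_add le_rfl (mul_le_mul_right h3 _)
    _ = e := by rw [← add_mul, tsub_add_cancel_of_le hθ1, one_mul]

variable (μ : Measure (Row k)) [IsProbabilityMeasure μ]

theorem measurable_qLaw {B : Set (ℕ → Fin k)} (hB : MeasurableSet B) :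
    Measurable fun ω => qLaw v ω B := by
  simp only [fun ω => qLaw_apply v ω hB]
  exact measurable_quenched v hB

theorem lintegral_qLaw (x : Site d) {B : Set (ℕ → Fin k)} (hB : MeasurableSet B) :
    ∫⁻ ω, qLaw v (seen x ω) B ∂envLaw μ = law v μ B := by
  simp only [fun ω => qLaw_apply v ω hB]
  exact lintegral_quenched_shift v μ x hB

/-- Two walks, from the origin and from `z`, independent given one common environment. -/
noncomputable def pairLaw (z : Site d) : Measure ((ℕ → Fin k) × (ℕ → Fin k)) :=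
  ((envLaw (d := d) μ).prod (uLaw.prod uLaw)).map fun x =>
    (steps v x.1 x.2.1, steps v (seen z x.1) x.2.2)

theorem measurable_pair (z : Site d) : Measurable fun x : (Site d → Row k) × (ℕ → ℝ) × (ℕ → ℝ) =>
    (steps v x.1 x.2.1, steps v (seen z x.1) x.2.2) :=
  (Measurable.comp (g := fun y : (Site d → Row k) × (ℕ → ℝ) => steps v y.1 y.2)
    (f := fun x : (Site d → Row k) × (ℕ → ℝ) × (ℕ → ℝ) => (x.1, x.2.1)) (measurable_steps v)
    (measurable_fst.prodMk (measurable_fst.comp measurable_snd))).prodMk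
  (Measurable.comp (g := fun y : (Site d → Row k) × (ℕ → ℝ) => steps v y.1 y.2)
    (f := fun x : (Site d → Row k) × (ℕ → ℝ) × (ℕ → ℝ) => (seen z x.1, x.2.2)) (measurable_steps v)
    (((measurable_seen z).comp measurable_fst).prodMk (measurable_snd.comp measurable_snd)))

instance (z : Site d) : IsProbabilityMeasure (pairLaw v μ z) :=
  Measure.isProbabilityMeasure_map (measurable_pair v z).aemeasurable

theorem pairLaw_apply (z : Site d) {A : Set ((ℕ → Fin k) × (ℕ → Fin k))} (hA : MeasurableSet A) :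
    pairLaw v μ z A = ∫⁻ ω, ((qLaw v ω).prod (qLaw v (seen z ω))) A ∂envLaw μ := by
  rw [pairLaw, Measure.map_apply (measurable_pair v z) hA,
    Measure.prod_apply (measurable_pair v z hA)]
  refine lintegral_congr fun ω => ?_
  rw [qLaw, qLaw, Measure.map_prod_map _ _ (measurable_stepsAt v _) (measurable_stepsAt v _),
    Measure.map_apply ((measurable_stepsAt v _).prodMap (measurable_stepsAt v _)) hA]
  rfl

theorem pairLaw_fst (z : Site d) {A : Set (ℕ → Fin k)} (hA : MeasurableSet A) :
    pairLaw v μ z (A ×ˢ Set.univ) = law v μ A := by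
  rw [pairLaw_apply v μ z (hA.prod .univ)]
  simp only [Measure.prod_prod, measure_univ, mul_one]
  simpa [seen_zero] using lintegral_qLaw v μ (0 : Site d) hA

theorem pairLaw_snd (z : Site d) {A : Set (ℕ → Fin k)} (hA : MeasurableSet A) :
    pairLaw v μ z (Set.univ ×ˢ A) = law v μ A := by
  rw [pairLaw_apply v μ z (MeasurableSet.univ.prod hA)]
  simp only [Measure.prod_prod, measure_univ, one_mul]
  exact lintegral_qLaw v μ z hA

/-- Prefixes on disjoint sites see independent environments. -/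
theorem pairLaw_prefix (z : Site d) (s s' : ℕ → Fin k) (n : ℕ)
    (hdis : ∀ i < n, ∀ j < n, pos v s i ≠ z + pos v s' j) :
    pairLaw v μ z ({t | ∀ i < n, t i = s i} ×ˢ {t | ∀ i < n, t i = s' i}) =
      law v μ {t | ∀ i < n, t i = s i} * law v μ {t | ∀ i < n, t i = s' i} := by
  have hm : ∀ r : ℕ → Fin k, MeasurableSet {t : ℕ → Fin k | ∀ i < n, t i = r i} := fun r =>
    measurableSet_prefix r n
  rw [pairLaw_apply v μ z ((hm s).prod (hm s'))]
  simp only [Measure.prod_prod, qLaw_prefix]
  set U : Set (Site d) := {x | ∃ i < n, x = pos v s i}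
  have hw : ∀ a, weight v s n (comb U a) = weight v s n a.1 := fun a =>
    prod_congr rfl fun i hi => by rw [comb, if_pos ⟨i, mem_range.1 hi, rfl⟩]
  have hw' : ∀ a, weight v s' n (seen z (comb U a)) = weight v s' n (seen z a.2) := fun a =>
    prod_congr rfl fun j hj => by
      have : z + pos v s' j ∉ U := fun ⟨i, hi, e⟩ => hdis i hi j (mem_range.1 hj) e.symm
      rw [seen, seen, comb, if_neg this]
  have hm2 : Measurable fun ω : Site d → Row k => weight v s' n (seen z ω) :=
    (measurable_weight v s' n).comp (measurable_seen z)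
  conv_lhs => rw [← map_comb μ U]
  rw [lintegral_map (f := fun ω => weight v s n ω * weight v s' n (seen z ω))
    ((measurable_weight v s n).mul hm2) (measurable_comb U)]
  simp only [hw, hw']
  rw [lintegral_prod_mul (measurable_weight v s n).aemeasurable hm2.aemeasurable, law_prefix,
    law_prefix]
  congr 1
  calc ∫⁻ ω, weight v s' n (seen z ω) ∂envLaw μ
      = ∫⁻ ω, weight v s' n ω ∂((envLaw μ).map (seen z)) :=
        (lintegral_map (measurable_weight v s' n) (measurable_seen z)).symm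
    _ = _ := by rw [show (envLaw (d := d) μ).map (seen z) = envLaw μ from map_shift_env μ z]

end Vale.Agent.P147.Glue
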